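import Vale.Agent.P340.Hub.Tm

/-!
Conservation: if every abstraction uses its variable, weak and strong normalisation coincide.
The proof is a strip lemma with the weight of parallel steps.
-/

namespace Vale.Agent.P340.Hub

/-- Skeletons: expressions over one sort. -/
abbrev Sk := Tm Unit

/-- The atom of skeletons. -/
abbrev star : Sk := .srt ()

/-- Number of free occurrences of a variable. -/
def occ : ℕ → Sk → ℕ
  | k, .var i => if i = k then 1 else 0
  | _, .srt _ => 0
  | k, .app a b => occ k a + occ k b
  | k, .lam a b => occ k a + occ (k + 1) b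
  | k, .pi a b => occ k a + occ (k + 1) b

/-- Every abstraction has an atomic annotation and uses its variable. -/
inductive Good : Sk → Prop
  | var (i) : Good (.var i)
  | srt : Good star
  | app {a b} : Good a → Good b → Good (.app a b)
  | lam {b} : Good b → 0 < occ 0 b → Good (.lam star b)
  | pi {a b} : Good a → Good b → Good (.pi a b)

/-- The substitution of `a` for the variable `j`. -/
def subAt : ℕ → Sk → ℕ → Sk
  | 0, a => inst a
  | j + 1, a => ups (subAt j a)

theorem occ_ren (t : Sk) : ∀ {f : ℕ → ℕ} {k k' : ℕ}, (∀ i, f i = k' ↔ i = k) →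
    occ k' (t.ren f) = occ k t := by
  induction t with
  | var i => intro f k k' h; simp [Tm.ren, occ, h]
  | srt s => intros; rfl
  | app a b iha ihb => intro f k k' h; simp [Tm.ren, occ, iha h, ihb h]
  | lam a b iha ihb =>
    intro f k k' h
    have h' : ∀ i, upr f i = k' + 1 ↔ i = k + 1 := fun i => by
      cases i with
      | zero => simp [upr]
      | succ i => simp [upr, h]
    simp [Tm.ren, occ, iha h, ihb h']
  | pi a b iha ihb =>
    intro f k k' h
    have h' : ∀ i, upr f i = k' + 1 ↔ i = k + 1 := fun i => by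
      cases i with
      | zero => simp [upr]
      | succ i => simp [upr, h]
    simp [Tm.ren, occ, iha h, ihb h']

theorem occ_ren_zero (t : Sk) : ∀ {f : ℕ → ℕ} {k : ℕ}, (∀ i, f i ≠ k) → occ k (t.ren f) = 0 := by
  induction t with
  | var i => intro f k h; simp [Tm.ren, occ, h]
  | srt s => intros; rfl
  | app a b iha ihb => intro f k h; simp [Tm.ren, occ, iha h, ihb h]
  | lam a b iha ihb =>
    intro f k h
    have h' : ∀ i, upr f i ≠ k + 1 := fun i => by cases i <;> simp [upr, h]
    simp [Tm.ren, occ, iha h, ihb h']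
  | pi a b iha ihb =>
    intro f k h
    have h' : ∀ i, upr f i ≠ k + 1 := fun i => by cases i <;> simp [upr, h]
    simp [Tm.ren, occ, iha h, ihb h']

theorem occ_succ (t : Sk) (k : ℕ) : occ (k + 1) (t.ren Nat.succ) = occ k t :=
  occ_ren t fun i => by simp

theorem occ_succ_zero (t : Sk) : occ 0 (t.ren Nat.succ) = 0 :=
  occ_ren_zero t fun i => by simp

theorem occ_inst (a : Sk) (k i : ℕ) :
    occ k (inst a i) = occ (k + 1) (.var i) + occ 0 (.var i) * occ k a := by
  cases i with
  | zero => simp [inst, occ]
  | succ i => simp [inst, occ]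

theorem occ_subAt (a : Sk) : ∀ (j k i : ℕ), occ k (subAt j a i) =
    if k < j then occ k (.var i) else occ (k + 1) (.var i) + occ j (.var i) * occ (k - j) a := by
  intro j
  induction j with
  | zero => intro k i; simpa [subAt] using occ_inst a k i
  | succ j ih =>
    intro k i
    cases i with
    | zero => cases k <;> simp [subAt, ups, occ]
    | succ i =>
      cases k with
      | zero => simp [subAt, ups, occ_succ_zero, occ]
      | succ k =>
        simp only [subAt, ups, occ_succ, ih, occ, Nat.add_right_cancel_iff, Nat.add_lt_add_iff_right,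
          Nat.reduceSubDiff]

theorem occ_sub (b : Sk) (a : Sk) : ∀ (j k : ℕ), occ k (b.sub (subAt j a)) =
    if k < j then occ k b else occ (k + 1) b + occ j b * occ (k - j) a := by
  induction b with
  | var i => intro j k; exact occ_subAt a j k i
  | srt s => intros; simp [Tm.sub, occ]
  | app x y ihx ihy =>
    intro j k
    simp only [Tm.sub, occ, ihx, ihy]
    split_ifs <;> ring
  | lam x y ihx ihy =>
    intro j k
    simp only [Tm.sub, occ, ihx, show ups (subAt j a) = subAt (j + 1) a from rfl, ihy,
      Nat.add_lt_add_iff_right, Nat.reduceSubDiff]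
    split_ifs <;> ring
  | pi x y ihx ihy =>
    intro j k
    simp only [Tm.sub, occ, ihx, show ups (subAt j a) = subAt (j + 1) a from rfl, ihy,
      Nat.add_lt_add_iff_right, Nat.reduceSubDiff]
    split_ifs <;> ring

theorem occ_beta (b a : Sk) (k : ℕ) :
    occ k (b.sub (inst a)) = occ (k + 1) b + occ 0 b * occ k a := by
  simpa [subAt] using occ_sub b a 0 k

theorem Good.ren {t : Sk} (h : Good t) : ∀ f : ℕ → ℕ, Good (t.ren f) := by
  induction h with
  | var i => intro f; exact .var _
  | srt => intro f; exact .srt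
  | app _ _ iha ihb => intro f; exact .app (iha f) (ihb f)
  | lam _ ho ihb =>
    intro f
    refine .lam (ihb _) ?_
    rwa [occ_ren (k := 0) _ fun i => by cases i <;> simp [upr]]
  | pi _ _ iha ihb => intro f; exact .pi (iha f) (ihb _)

theorem Good.subAt {a : Sk} (ha : Good a) : ∀ j i, Good (Hub.subAt j a i) := by
  intro j
  induction j with
  | zero =>
    intro i
    cases i with
    | zero => exact ha
    | succ i => exact .var _
  | succ j ih =>
    intro i
    cases i with
    | zero => exact .var _
    | succ i => exact (ih i).ren _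

theorem Good.sub {b a : Sk} (hb : Good b) (ha : Good a) :
    ∀ j, Good (b.sub (Hub.subAt j a)) := by
  induction hb with
  | var i => intro j; exact ha.subAt j i
  | srt => intro j; exact .srt
  | app _ _ iha ihb => intro j; exact .app (iha j) (ihb j)
  | @lam b _ ho ihb =>
    intro j
    refine .lam (ihb (j + 1)) ?_
    rw [show ups (Hub.subAt j a) = Hub.subAt (j + 1) a from rfl, occ_sub]
    simpa using ho
  | pi _ _ iha ihb => intro j; exact .pi (iha j) (ihb (j + 1))

theorem Step.good {t t' : Sk} (h : Step t t') :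
    Good t → Good t' ∧ ∀ k, 0 < occ k t → 0 < occ k t' := by
  induction h with
  | beta A b a =>
    intro g
    cases g with | app g1 g2 => cases g1 with | lam gb ho =>
    refine ⟨gb.sub g2 0, fun k hk => ?_⟩
    simp only [occ] at hk
    rw [occ_beta]
    rcases Nat.eq_zero_or_pos (occ k a) with h | h
    · omega
    · have := Nat.mul_pos ho h; omega
  | app₁ b _ ih =>
    intro g; cases g with | app g1 g2 =>
    obtain ⟨h1, h2⟩ := ih g1
    refine ⟨.app h1 g2, fun k hk => ?_⟩
    simp only [occ] at hk ⊢
    have := h2 k; omega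
  | app₂ a _ ih =>
    intro g; cases g with | app g1 g2 =>
    obtain ⟨h1, h2⟩ := ih g2
    refine ⟨.app g1 h1, fun k hk => ?_⟩
    simp only [occ] at hk ⊢
    have := h2 k; omega
  | lam₁ b h _ => intro g; cases g with | lam => cases h
  | lam₂ a _ ih =>
    intro g; cases g with | lam gb ho =>
    obtain ⟨h1, h2⟩ := ih gb
    refine ⟨.lam h1 (h2 0 ho), fun k hk => ?_⟩
    simp only [occ] at hk ⊢
    have := h2 (k + 1); omega
  | pi₁ b _ ih =>
    intro g; cases g with | pi g1 g2 =>
    obtain ⟨h1, h2⟩ := ih g1
    refine ⟨.pi h1 g2, fun k hk => ?_⟩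
    simp only [occ] at hk ⊢
    have := h2 k; omega
  | pi₂ a _ ih =>
    intro g; cases g with | pi g1 g2 =>
    obtain ⟨h1, h2⟩ := ih g2
    refine ⟨.pi g1 h1, fun k hk => ?_⟩
    simp only [occ] at hk ⊢
    have := h2 (k + 1); omega

/-- Parallel reduction, with the number of single steps it stands for. -/
inductive Par : Sk → Sk → ℕ → Prop
  | var (i) : Par (.var i) (.var i) 0
  | srt : Par star star 0
  | app {f f' a a' m n} : Par f f' m → Par a a' n → Par (.app f a) (.app f' a') (m + n)
  | lam {b b' m} : Par b b' m → Par (.lam star b) (.lam star b') m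
  | pi {a a' b b' m n} : Par a a' m → Par b b' n → Par (.pi a b) (.pi a' b') (m + n)
  | beta {b b' a a' m n} : Par b b' m → Par a a' n →
      Par (.app (.lam star b) a) (b'.sub (inst a')) (m + occ 0 b' * n + 1)

theorem Par.rfl' {t : Sk} (g : Good t) : Par t t 0 := by
  induction g with
  | var i => exact .var i
  | srt => exact .srt
  | app _ _ iha ihb => simpa using Par.app iha ihb
  | lam _ _ ihb => exact .lam ihb
  | pi _ _ iha ihb => simpa using Par.pi iha ihb

theorem Par.steps {t t' : Sk} {n : ℕ} (h : Par t t' n) : Steps t t' := by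
  induction h with
  | var i => exact .refl
  | srt => exact .refl
  | app _ _ iha ihb => exact (Steps.app₁ _ iha).trans (Steps.app₂ _ ihb)
  | lam _ ihb => exact Steps.lam₂ _ ihb
  | pi _ _ iha ihb => exact (Steps.pi₁ _ iha).trans (Steps.pi₂ _ ihb)
  | beta _ _ ihb iha =>
    exact ((Steps.app₁ _ (Steps.lam₂ _ ihb)).trans (Steps.app₂ _ iha)).tail (.beta _ _ _)

theorem Steps.good {t t' : Sk} (h : Steps t t') (g : Good t) :
    Good t' ∧ ∀ k, 0 < occ k t → 0 < occ k t' := by
  induction h with
  | refl => exact ⟨g, fun _ => id⟩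
  | tail _ h ih => exact ⟨(h.good ih.1).1, fun k hk => (h.good ih.1).2 k (ih.2 k hk)⟩

theorem Par.ren {t t' : Sk} {n : ℕ} (h : Par t t' n) :
    ∀ f : ℕ → ℕ, Par (t.ren f) (t'.ren f) n := by
  induction h with
  | var i => intro f; exact .var _
  | srt => intro f; exact .srt
  | app _ _ iha ihb => intro f; exact .app (iha f) (ihb f)
  | lam _ ihb => intro f; exact .lam (ihb _)
  | pi _ _ iha ihb => intro f; exact .pi (iha f) (ihb _)
  | @beta b b' a a' m n _ _ ihb iha =>
    intro f
    rw [inst_ren, ← occ_ren b' (f := upr f) (k := 0) (k' := 0) fun i => by cases i <;> simp [upr]]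
    exact .beta (ihb _) (iha f)

theorem Par.subAt {a a' : Sk} {n : ℕ} (h : Par a a' n) :
    ∀ j i, Par (Hub.subAt j a i) (Hub.subAt j a' i) (occ j (.var i) * n) := by
  intro j
  induction j with
  | zero =>
    intro i
    cases i with
    | zero => simpa [Hub.subAt, inst, occ] using h
    | succ i => simpa [Hub.subAt, inst, occ] using Par.var i
  | succ j ih =>
    intro i
    cases i with
    | zero => simpa [Hub.subAt, ups, occ] using Par.var 0
    | succ i => simpa [Hub.subAt, ups, occ] using (ih i).ren Nat.succ

theorem Par.sub {b b' a a' : Sk} {m n : ℕ} (hb : Par b b' m) (ha : Par a a' n) :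
    ∀ j, Par (b.sub (Hub.subAt j a)) (b'.sub (Hub.subAt j a')) (m + occ j b' * n) := by
  induction hb with
  | var i => intro j; simpa [Tm.sub] using ha.subAt j i
  | srt => intro j; simpa [Tm.sub, occ] using Par.srt
  | @app f f' x x' p q _ _ ihf ihx =>
    intro j
    have := Par.app (ihf j) (ihx j)
    rwa [show p + occ j f' * n + (q + occ j x' * n) = p + q + occ j (f'.app x') * n by
      simp [occ]; ring] at this
  | @lam x x' p _ ihx =>
    intro j
    simpa [Tm.sub, occ, show ups (Hub.subAt j a) = Hub.subAt (j + 1) a from rfl,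
      show ups (Hub.subAt j a') = Hub.subAt (j + 1) a' from rfl] using Par.lam (ihx (j + 1))
  | @pi x x' y y' p q _ _ ihx ihy =>
    intro j
    have := Par.pi (ihx j) (ihy (j + 1))
    rwa [show p + occ j x' * n + (q + occ (j + 1) y' * n) = p + q + occ j (x'.pi y') * n by
      simp [occ]; ring] at this
  | @beta x x' y y' p q _ _ ihx ihy =>
    intro j
    have h := Par.beta (ihx (j + 1)) (ihy j)
    rw [occ_sub x' a' (j + 1) 0] at h
    rw [inst_sub, occ_beta, show ups (Hub.subAt j a') = Hub.subAt (j + 1) a' from rfl]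
    simp only [Tm.sub, show ups (Hub.subAt j a) = Hub.subAt (j + 1) a from rfl]
    simp only [Nat.zero_lt_succ, if_true] at h
    rwa [show p + occ (j + 1) x' * n + occ 0 x' * (q + occ j y' * n) + 1 =
      p + occ 0 x' * q + 1 + (occ (j + 1) x' + occ 0 x' * occ j y') * n by ring] at h

theorem ups_steps {σ τ : ℕ → Sk} (h : ∀ i, Steps (σ i) (τ i)) :
    ∀ i, Steps (ups σ i) (ups τ i) := fun i => by
  cases i with
  | zero => exact .refl
  | succ i => exact (h i).lift _ fun _ _ s => s.ren _

theorem sub_steps (t : Sk) : ∀ {σ τ : ℕ → Sk}, (∀ i, Steps (σ i) (τ i)) →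
    Steps (t.sub σ) (t.sub τ) := by
  induction t with
  | var i => intro σ τ h; exact h i
  | srt s => intros; exact .refl
  | app a b iha ihb => intro σ τ h; exact (Steps.app₁ _ (iha h)).trans (Steps.app₂ _ (ihb h))
  | lam a b iha ihb =>
    intro σ τ h; exact (Steps.lam₁ _ (iha h)).trans (Steps.lam₂ _ (ihb (ups_steps h)))
  | pi a b iha ihb =>
    intro σ τ h; exact (Steps.pi₁ _ (iha h)).trans (Steps.pi₂ _ (ihb (ups_steps h)))

theorem sub_step_pos (b : Sk) : ∀ {a a' : Sk} (j : ℕ), Step a a' → 0 < occ j b →
    Relation.TransGen Step (b.sub (subAt j a)) (b.sub (subAt j a')) := by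
  have base : ∀ {a a' : Sk} (j : ℕ), Step a a' → ∀ i, Steps (subAt j a i) (subAt j a' i) := by
    intro a a' j h
    induction j with
    | zero =>
      intro i
      cases i with
      | zero => exact .single h
      | succ i => exact .refl
    | succ j ih => exact ups_steps ih
  induction b with
  | var i =>
    intro a a' j h hp
    have e : ∀ j, Step (subAt j a j) (subAt j a' j) := by
      intro j
      induction j with
      | zero => exact h
      | succ j ih => exact ih.ren _
    simp only [occ] at hp
    split at hp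
    · subst i; exact .single (e j)
    · omega
  | srt s => intro a a' j h hp; simp [occ] at hp
  | app x y ihx ihy =>
    intro a a' j h hp
    simp only [occ] at hp
    rcases Nat.eq_zero_or_pos (occ j x) with hx | hx
    · exact Relation.TransGen.trans_right (Steps.app₁ _ (sub_steps x (base j h)))
        ((ihy j h (by omega)).lift _ fun _ _ s => Step.app₂ _ s)
    · exact ((ihx j h hx).lift (fun z => Tm.app z _) fun _ _ s => Step.app₁ _ s).trans_left
        (Steps.app₂ _ (sub_steps y (base j h)))
  | lam x y ihx ihy =>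
    intro a a' j h hp
    simp only [occ] at hp
    rcases Nat.eq_zero_or_pos (occ j x) with hx | hx
    · exact Relation.TransGen.trans_right (Steps.lam₁ _ (sub_steps x (base j h)))
        ((ihy (j + 1) h (by omega)).lift _ fun _ _ s => Step.lam₂ _ s)
    · exact ((ihx j h hx).lift (fun z => Tm.lam z _) fun _ _ s => Step.lam₁ _ s).trans_left
        (Steps.lam₂ _ (sub_steps y (ups_steps (base j h))))
  | pi x y ihx ihy =>
    intro a a' j h hp
    simp only [occ] at hp
    rcases Nat.eq_zero_or_pos (occ j x) with hx | hx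
    · exact Relation.TransGen.trans_right (Steps.pi₁ _ (sub_steps x (base j h)))
        ((ihy (j + 1) h (by omega)).lift _ fun _ _ s => Step.pi₂ _ s)
    · exact ((ihx j h hx).lift (fun z => Tm.pi z _) fun _ _ s => Step.pi₁ _ s).trans_left
        (Steps.pi₂ _ (sub_steps y (ups_steps (base j h))))

/-- A step against a parallel step either lowers the weight or moves the target forward. -/
theorem strip {u v : Sk} {w : ℕ} (h : Par u v w) : Good u → ∀ {u'}, Step u u' →
    (∃ w' < w, Par u' v w') ∨ ∃ v' w', Relation.TransGen Step v v' ∧ Par u' v' w' := by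
  induction h with
  | var i => intro _ u' hs; cases hs
  | srt => intro _ u' hs; cases hs
  | @lam b b' m _ ih =>
    intro g u' hs
    cases g with | lam gb ho =>
    cases hs with
    | lam₁ _ h => cases h
    | lam₂ _ h =>
      rcases ih gb h with ⟨w, hw, hp⟩ | ⟨v', w, hv, hp⟩
      · exact .inl ⟨w, hw, .lam hp⟩
      · exact .inr ⟨_, w, hv.lift (fun z => Tm.lam star z) fun _ _ => Step.lam₂ _, .lam hp⟩
  | @pi a a' b b' m n pa pb iha ihb =>
    intro g u' hs
    cases g with | pi ga gb =>
    cases hs with
    | pi₁ _ h =>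
      rcases iha ga h with ⟨w, hw, hp⟩ | ⟨v', w, hv, hp⟩
      · exact .inl ⟨w + n, by omega, .pi hp pb⟩
      · exact .inr ⟨_, _, hv.lift (fun z => Tm.pi z b') fun _ _ => Step.pi₁ _, .pi hp pb⟩
    | pi₂ _ h =>
      rcases ihb gb h with ⟨w, hw, hp⟩ | ⟨v', w, hv, hp⟩
      · exact .inl ⟨m + w, by omega, .pi pa hp⟩
      · exact .inr ⟨_, _, hv.lift (fun z => Tm.pi a' z) fun _ _ => Step.pi₂ _, .pi pa hp⟩
  | @app f f' a a' m n pf pa ihf iha =>
    intro g u' hs
    cases g with | app gf ga =>
    cases hs with
    | beta A b x =>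
      cases gf with | lam gb ho =>
      cases pf with
      | lam pb => exact .inr ⟨_, _, .single (.beta _ _ _), pb.sub pa 0⟩
    | app₁ _ h =>
      rcases ihf gf h with ⟨w, hw, hp⟩ | ⟨v', w, hv, hp⟩
      · exact .inl ⟨w + n, by omega, .app hp pa⟩
      · exact .inr ⟨_, _, hv.lift (fun z => Tm.app z a') fun _ _ => Step.app₁ _, .app hp pa⟩
    | app₂ _ h =>
      rcases iha ga h with ⟨w, hw, hp⟩ | ⟨v', w, hv, hp⟩
      · exact .inl ⟨m + w, by omega, .app pf hp⟩
      · exact .inr ⟨_, _, hv.lift (fun z => Tm.app f' z) fun _ _ => Step.app₂ _, .app pf hp⟩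
  | @beta b b' a a' m n pb pa ihb iha =>
    intro g u' hs
    cases g with | app gf ga => cases gf with | lam gb ho =>
    have ho' : 0 < occ 0 b' := (pb.steps.good gb).2 0 ho
    cases hs with
    | beta => exact .inl ⟨_, Nat.lt_succ_self _, pb.sub pa 0⟩
    | app₁ _ h =>
      cases h with
      | lam₁ _ h => cases h
      | lam₂ _ h =>
        rcases ihb gb h with ⟨w, hw, hp⟩ | ⟨v', w, hv, hp⟩
        · exact .inl ⟨_, by omega, .beta hp pa⟩
        · exact .inr ⟨_, _, hv.lift (fun z => z.sub (inst a')) fun _ _ s => s.sub _, .beta hp pa⟩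
    | app₂ _ h =>
      rcases iha ga h with ⟨w, hw, hp⟩ | ⟨v', w, hv, hp⟩
      · refine .inl ⟨_, ?_, .beta pb hp⟩
        have := Nat.mul_lt_mul_of_pos_left hw ho'
        omega
      · refine .inr ⟨b'.sub (inst v'), _, ?_, .beta pb hp⟩
        clear hp
        induction hv with
        | single s => exact sub_step_pos b' 0 s ho'
        | tail _ s ih => exact ih.trans (sub_step_pos b' 0 s ho')

theorem acc_of_par {v : Sk} (hv : Acc (fun x y => Relation.TransGen Step y x) v) :
    ∀ {u : Sk} {w : ℕ}, Par u v w → Good u → Acc (fun x y => Step y x) u := by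
  induction hv with
  | intro v _ ih =>
    intro u w
    induction w using Nat.strong_induction_on generalizing u with
    | _ w ihw =>
      intro hp g
      refine ⟨_, fun u' hs => ?_⟩
      rcases strip hp g hs with ⟨w', hw, hp'⟩ | ⟨v', w', hv', hp'⟩
      · exact ihw w' hw hp' (hs.good g).1
      · exact ih v' hv' hp' (hs.good g).1

theorem acc_transGen {t : Sk} (h : Acc (fun x y => Step y x) t) :
    Acc (fun x y => Relation.TransGen Step y x) t := by
  have : ∀ {a b : Sk}, Relation.TransGen Step b a →
      Relation.TransGen (fun x y => Step y x) a b := fun h => by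
    induction h with
    | single h => exact .single h
    | tail _ h ih => exact Relation.TransGen.head h ih
  exact Subrelation.accessible (fun {a b} hab => this hab) h.transGen

/-- Weak normalisation gives strong normalisation for good skeletons. -/
theorem acc_of_steps {t n : Sk} (h : Steps t n) (hn : ∀ u, ¬ Step n u) (g : Good t) :
    Acc (fun x y => Step y x) t := by
  induction h using Relation.ReflTransGen.head_induction_on with
  | refl => exact ⟨_, fun u hu => absurd hu (hn u)⟩
  | @head a c hac _ ih =>
    have hp : ∀ {a c : Sk}, Step a c → Good a → ∃ w, Par a c w := by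
      intro a c hs
      induction hs with
      | beta A b x =>
        intro g; cases g with | app g1 g2 => cases g1 with | lam gb ho =>
        exact ⟨_, .beta (Par.rfl' gb) (Par.rfl' g2)⟩
      | app₁ b _ ih =>
        intro g; cases g with | app g1 g2 =>
        obtain ⟨w, hw⟩ := ih g1; exact ⟨_, .app hw (Par.rfl' g2)⟩
      | app₂ b _ ih =>
        intro g; cases g with | app g1 g2 =>
        obtain ⟨w, hw⟩ := ih g2; exact ⟨_, .app (Par.rfl' g1) hw⟩
      | lam₁ b h _ => intro g; cases g with | lam => cases h
      | lam₂ b _ ih =>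
        intro g; cases g with | lam gb ho =>
        obtain ⟨w, hw⟩ := ih gb; exact ⟨_, .lam hw⟩
      | pi₁ b _ ih =>
        intro g; cases g with | pi g1 g2 =>
        obtain ⟨w, hw⟩ := ih g1; exact ⟨_, .pi hw (Par.rfl' g2)⟩
      | pi₂ b _ ih =>
        intro g; cases g with | pi g1 g2 =>
        obtain ⟨w, hw⟩ := ih g2; exact ⟨_, .pi (Par.rfl' g1) hw⟩
    obtain ⟨w, hw⟩ := hp hac g
    exact acc_of_par (acc_transGen (ih (hac.good g).1)) hw g

end Vale.Agent.P340.Hub
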