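import Mathlib

/-!
Pure type systems: expressions in de Bruijn form, beta reduction, typing, normalisation.
Contexts are lists with the most recent declaration first.
-/

namespace Vale.Agent.P340.Hub

universe u

/-- Expressions of a pure type system with sorts `S`. -/
inductive Tm (S : Type u) : Type u
  | var : ℕ → Tm S
  | srt : S → Tm S
  | app : Tm S → Tm S → Tm S
  | lam : Tm S → Tm S → Tm S
  | pi : Tm S → Tm S → Tm S

variable {S : Type u}

/-- A renaming lifted under a binder. -/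
def upr (f : ℕ → ℕ) : ℕ → ℕ
  | 0 => 0
  | n + 1 => f n + 1

/-- Renaming of the free variables. -/
def Tm.ren : (ℕ → ℕ) → Tm S → Tm S
  | f, .var i => .var (f i)
  | _, .srt s => .srt s
  | f, .app a b => .app (a.ren f) (b.ren f)
  | f, .lam a b => .lam (a.ren f) (b.ren (upr f))
  | f, .pi a b => .pi (a.ren f) (b.ren (upr f))

/-- A substitution lifted under a binder. -/
def ups (σ : ℕ → Tm S) : ℕ → Tm S
  | 0 => .var 0
  | n + 1 => (σ n).ren Nat.succ

/-- Parallel substitution. -/
def Tm.sub : (ℕ → Tm S) → Tm S → Tm S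
  | σ, .var i => σ i
  | _, .srt s => .srt s
  | σ, .app a b => .app (a.sub σ) (b.sub σ)
  | σ, .lam a b => .lam (a.sub σ) (b.sub (ups σ))
  | σ, .pi a b => .pi (a.sub σ) (b.sub (ups σ))

/-- The substitution of `a` for the last variable. -/
def inst (a : Tm S) : ℕ → Tm S
  | 0 => a
  | n + 1 => .var n

/-- One step of beta reduction, in any subexpression. -/
inductive Step : Tm S → Tm S → Prop
  | beta (A b a) : Step (.app (.lam A b) a) (b.sub (inst a))
  | app₁ {a a'} (b) : Step a a' → Step (.app a b) (.app a' b)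
  | app₂ (a) {b b'} : Step b b' → Step (.app a b) (.app a b')
  | lam₁ {a a'} (b) : Step a a' → Step (.lam a b) (.lam a' b)
  | lam₂ (a) {b b'} : Step b b' → Step (.lam a b) (.lam a b')
  | pi₁ {a a'} (b) : Step a a' → Step (.pi a b) (.pi a' b)
  | pi₂ (a) {b b'} : Step b b' → Step (.pi a b) (.pi a b')

/-- Typing in the system with axioms `Ax` and rules `Ru`. -/
inductive Typed (Ax : S → S → Prop) (Ru : S → S → S → Prop) :
    List (Tm S) → Tm S → Tm S → Prop
  | ax {s t} : Ax s t → Typed Ax Ru [] (.srt s) (.srt t)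
  | var {Γ A s} : Typed Ax Ru Γ A (.srt s) → Typed Ax Ru (A :: Γ) (.var 0) (A.ren Nat.succ)
  | weak {Γ M B A s} : Typed Ax Ru Γ M B → Typed Ax Ru Γ A (.srt s) →
      Typed Ax Ru (A :: Γ) (M.ren Nat.succ) (B.ren Nat.succ)
  | prod {Γ A B s₁ s₂ s₃} : Typed Ax Ru Γ A (.srt s₁) → Typed Ax Ru (A :: Γ) B (.srt s₂) →
      Ru s₁ s₂ s₃ → Typed Ax Ru Γ (.pi A B) (.srt s₃)
  | abs {Γ A M B s} : Typed Ax Ru (A :: Γ) M B → Typed Ax Ru Γ (.pi A B) (.srt s) →
      Typed Ax Ru Γ (.lam A M) (.pi A B)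
  | app {Γ M N A B} : Typed Ax Ru Γ M (.pi A B) → Typed Ax Ru Γ N A →
      Typed Ax Ru Γ (.app M N) (B.sub (inst N))
  | conv {Γ M A B s} : Typed Ax Ru Γ M A → Typed Ax Ru Γ B (.srt s) →
      Relation.EqvGen Step A B → Typed Ax Ru Γ M B

/-- An expression is legal if it is the subject or the type of a derivable judgment. -/
def Legal (Ax : S → S → Prop) (Ru : S → S → S → Prop) (M : Tm S) : Prop :=
  ∃ Γ A, Typed Ax Ru Γ M A ∨ Typed Ax Ru Γ A M

/-- The expression reduces to a normal form. -/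
def HasNormalForm (M : Tm S) : Prop :=
  ∃ N, Relation.ReflTransGen Step M N ∧ ∀ N', ¬ Step N N'

/-- The expression starts an infinite reduction. -/
def Diverges (M : Tm S) : Prop :=
  ∃ f : ℕ → Tm S, f 0 = M ∧ ∀ n, Step (f n) (f (n + 1))

end Vale.Agent.P340.Hub
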