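import Vale.Agent.P340.Hub.Defs

/-!
The substitution calculus and the closure properties of reduction.
-/

namespace Vale.Agent.P340.Hub

universe u

variable {S : Type u}

theorem upr_id : upr id = id := by funext n; cases n <;> rfl

theorem ren_id (t : Tm S) : t.ren id = t := by
  induction t <;> simp_all [Tm.ren, upr_id]

theorem upr_comp (f g : ℕ → ℕ) : upr g ∘ upr f = upr (g ∘ f) := by funext n; cases n <;> rfl

theorem ren_ren (t : Tm S) (f g : ℕ → ℕ) : (t.ren f).ren g = t.ren (g ∘ f) := by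
  induction t generalizing f g <;> simp_all [Tm.ren, upr_comp]

theorem ups_var : ups (Tm.var : ℕ → Tm S) = Tm.var := by funext n; cases n <;> rfl

theorem sub_var (t : Tm S) : t.sub Tm.var = t := by
  induction t <;> simp_all [Tm.sub, ups_var]

theorem ups_upr (σ : ℕ → Tm S) (f : ℕ → ℕ) : ups σ ∘ upr f = ups (σ ∘ f) := by
  funext n; cases n <;> rfl

theorem sub_ren (t : Tm S) (σ : ℕ → Tm S) (f : ℕ → ℕ) : (t.ren f).sub σ = t.sub (σ ∘ f) := by
  induction t generalizing σ f <;> simp_all [Tm.ren, Tm.sub, ups_upr]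

theorem upr_ups (σ : ℕ → Tm S) (f : ℕ → ℕ) :
    (fun i => (ups σ i).ren (upr f)) = ups (fun i => (σ i).ren f) := by
  funext n
  cases n with
  | zero => rfl
  | succ n => simp only [ups, ren_ren]; rfl

theorem ren_sub (t : Tm S) (σ : ℕ → Tm S) (f : ℕ → ℕ) :
    (t.sub σ).ren f = t.sub (fun i => (σ i).ren f) := by
  induction t generalizing σ f <;> simp_all [Tm.ren, Tm.sub, upr_ups]

theorem ups_ups (σ τ : ℕ → Tm S) :
    (fun i => (ups σ i).sub (ups τ)) = ups (fun i => (σ i).sub τ) := by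
  funext n
  cases n with
  | zero => rfl
  | succ n => simp only [ups, sub_ren, ren_sub]; rfl

theorem sub_sub (t : Tm S) (σ τ : ℕ → Tm S) :
    (t.sub σ).sub τ = t.sub (fun i => (σ i).sub τ) := by
  induction t generalizing σ τ <;> simp_all [Tm.sub, ups_ups]

theorem ren_eq_sub (t : Tm S) (f : ℕ → ℕ) : t.ren f = t.sub (fun i => .var (f i)) := by
  conv_lhs => rw [← sub_var (t.ren f)]
  rw [sub_ren]; rfl

theorem inst_ren (b a : Tm S) (f : ℕ → ℕ) :
    (b.sub (inst a)).ren f = (b.ren (upr f)).sub (inst (a.ren f)) := by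
  rw [ren_sub, sub_ren]
  congr 1; funext n; cases n <;> rfl

theorem inst_sub (b a : Tm S) (σ : ℕ → Tm S) :
    (b.sub (inst a)).sub σ = (b.sub (ups σ)).sub (inst (a.sub σ)) := by
  rw [sub_sub, sub_sub]
  congr 1; funext n
  cases n with
  | zero => rfl
  | succ n => simp [inst, ups, sub_ren, Tm.sub, Function.comp_def, sub_var]

theorem inst_succ (b a : Tm S) : (b.ren Nat.succ).sub (inst a) = b := by
  rw [sub_ren]; exact sub_var b

theorem Step.ren {a b : Tm S} (h : Step a b) (f : ℕ → ℕ) : Step (a.ren f) (b.ren f) := by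
  induction h generalizing f with
  | beta A b a => rw [inst_ren]; exact .beta _ _ _
  | app₁ b _ ih => exact .app₁ _ (ih f)
  | app₂ a _ ih => exact .app₂ _ (ih f)
  | lam₁ b _ ih => exact .lam₁ _ (ih f)
  | lam₂ a _ ih => exact .lam₂ _ (ih (upr f))
  | pi₁ b _ ih => exact .pi₁ _ (ih f)
  | pi₂ a _ ih => exact .pi₂ _ (ih (upr f))

theorem Step.sub {a b : Tm S} (h : Step a b) (σ : ℕ → Tm S) : Step (a.sub σ) (b.sub σ) := by
  induction h generalizing σ with
  | beta A b a => rw [inst_sub]; exact .beta _ _ _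
  | app₁ b _ ih => exact .app₁ _ (ih σ)
  | app₂ a _ ih => exact .app₂ _ (ih σ)
  | lam₁ b _ ih => exact .lam₁ _ (ih σ)
  | lam₂ a _ ih => exact .lam₂ _ (ih (ups σ))
  | pi₁ b _ ih => exact .pi₁ _ (ih σ)
  | pi₂ a _ ih => exact .pi₂ _ (ih (ups σ))

/-- Beta convertibility. -/
abbrev Conv (a b : Tm S) : Prop := Relation.EqvGen Step a b

/-- Reduction in any number of steps. -/
abbrev Steps (a b : Tm S) : Prop := Relation.ReflTransGen Step a b

theorem Conv.map {g : Tm S → Tm S} (hg : ∀ {a b}, Step a b → Conv (g a) (g b)) {a b : Tm S}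
    (h : Conv a b) : Conv (g a) (g b) := by
  induction h with
  | rel x y h => exact hg h
  | refl x => exact .refl _
  | symm x y _ ih => exact .symm _ _ ih
  | trans x y z _ _ ih1 ih2 => exact .trans _ _ _ ih1 ih2

theorem Conv.ren {a b : Tm S} (h : Conv a b) (f : ℕ → ℕ) : Conv (a.ren f) (b.ren f) :=
  h.map fun s => .rel _ _ (s.ren f)

theorem Conv.sub {a b : Tm S} (h : Conv a b) (σ : ℕ → Tm S) : Conv (a.sub σ) (b.sub σ) :=
  h.map fun s => .rel _ _ (s.sub σ)

theorem Steps.app₁ {a a' : Tm S} (b : Tm S) (h : Steps a a') : Steps (.app a b) (.app a' b) :=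
  h.lift (fun x => Tm.app x b) fun _ _ => Step.app₁ b

theorem Steps.app₂ {a a' : Tm S} (b : Tm S) (h : Steps a a') : Steps (.app b a) (.app b a') :=
  h.lift (fun x => Tm.app b x) fun _ _ => Step.app₂ b

theorem Steps.lam₂ {a a' : Tm S} (b : Tm S) (h : Steps a a') : Steps (.lam b a) (.lam b a') :=
  h.lift (fun x => Tm.lam b x) fun _ _ => Step.lam₂ b

theorem Steps.lam₁ {a a' : Tm S} (b : Tm S) (h : Steps a a') : Steps (.lam a b) (.lam a' b) :=
  h.lift (fun x => Tm.lam x b) fun _ _ => Step.lam₁ b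

theorem Steps.pi₁ {a a' : Tm S} (b : Tm S) (h : Steps a a') : Steps (.pi a b) (.pi a' b) :=
  h.lift (fun x => Tm.pi x b) fun _ _ => Step.pi₁ b

theorem Steps.pi₂ {a a' : Tm S} (b : Tm S) (h : Steps a a') : Steps (.pi b a) (.pi b a') :=
  h.lift (fun x => Tm.pi b x) fun _ _ => Step.pi₂ b

theorem not_diverges_of_acc {a : Tm S} (h : Acc (fun x y => Step y x) a) : ¬ Diverges a := by
  induction h with
  | intro x _ ih =>
    rintro ⟨f, f0, hf⟩
    exact ih (f 1) (f0 ▸ hf 0) ⟨fun n => f (n + 1), rfl, fun n => hf (n + 1)⟩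

end Vale.Agent.P340.Hub
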