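import Vale.Agent.P340.Hub.Tm

/-!
Contexts, thinning, substitution and correctness of types.
-/

namespace Vale.Agent.P340.Hub

universe u

variable {S : Type u} {Ax : S → S → Prop} {Ru : S → S → S → Prop}

/-- Well-formed contexts. -/
inductive Wf (Ax : S → S → Prop) (Ru : S → S → S → Prop) : List (Tm S) → Prop
  | nil : Wf Ax Ru []
  | cons {Γ A s} : Wf Ax Ru Γ → Typed Ax Ru Γ A (.srt s) → Wf Ax Ru (A :: Γ)

/-- The type of a variable, read in the whole context. -/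
inductive Look : List (Tm S) → ℕ → Tm S → Prop
  | zero {Γ A} : Look (A :: Γ) 0 (A.ren Nat.succ)
  | succ {Γ A B i} : Look Γ i B → Look (A :: Γ) (i + 1) (B.ren Nat.succ)

theorem Typed.wf {Γ : List (Tm S)} {M A : Tm S} (h : Typed Ax Ru Γ M A) : Wf Ax Ru Γ := by
  induction h with
  | ax => exact .nil
  | var h ih => exact .cons ih h
  | weak _ h2 ih _ => exact .cons ih h2
  | prod _ _ _ ih _ => exact ih
  | abs _ _ _ ih => exact ih
  | app _ _ ih _ => exact ih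
  | conv _ _ _ ih _ => exact ih

theorem Wf.axiom_sort {Γ : List (Tm S)} (w : Wf Ax Ru Γ) {s t : S} (h : Ax s t) :
    Typed Ax Ru Γ (.srt s) (.srt t) := by
  induction w with
  | nil => exact .ax h
  | cons _ hA ih => exact Typed.weak ih hA

theorem Look.typed {Γ : List (Tm S)} {i : ℕ} {A : Tm S} (h : Look Γ i A) (w : Wf Ax Ru Γ) :
    Typed Ax Ru Γ (.var i) A := by
  induction h with
  | zero => cases w with | cons _ hA => exact .var hA
  | succ _ ih => cases w with | cons w' hA => exact Typed.weak (ih w') hA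

theorem Typed.pi_dom {Γ : List (Tm S)} {X T : Tm S} (h : Typed Ax Ru Γ X T) :
    ∀ {A B}, X = .pi A B → ∃ s, Typed Ax Ru Γ A (.srt s) := by
  induction h with
  | ax => intro A B e; cases e
  | var => intro A B e; cases e
  | @weak Γ M B0 A0 s _ hA ih _ =>
    intro A B e
    cases M with
    | pi a b =>
      cases e
      obtain ⟨s1, h1⟩ := ih rfl
      exact ⟨s1, Typed.weak h1 hA⟩
    | _ => cases e
  | prod hA => intro A B e; cases e; exact ⟨_, hA⟩
  | abs => intro A B e; cases e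
  | app => intro A B e; cases e
  | conv _ _ _ ih => intro A B e; exact ih e

/-- A renaming from one context into another. -/
def RenOK (Γ Γ' : List (Tm S)) (f : ℕ → ℕ) : Prop := ∀ i A, Look Γ i A → Look Γ' (f i) (A.ren f)

theorem RenOK.up {Γ Γ' : List (Tm S)} {f : ℕ → ℕ} (h : RenOK Γ Γ' f) (A : Tm S) :
    RenOK (A :: Γ) (A.ren f :: Γ') (upr f) := by
  intro i B hB
  cases hB with
  | zero =>
    rw [ren_ren, show upr f ∘ Nat.succ = Nat.succ ∘ f from rfl, ← ren_ren]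
    exact .zero
  | succ hB =>
    rw [ren_ren, show upr f ∘ Nat.succ = Nat.succ ∘ f from rfl, ← ren_ren]
    exact .succ (h _ _ hB)

theorem RenOK.tail {Γ Γ' : List (Tm S)} {f : ℕ → ℕ} {A : Tm S} (h : RenOK (A :: Γ) Γ' f) :
    RenOK Γ Γ' (f ∘ Nat.succ) := fun i B hB => by
  rw [← ren_ren]; exact h _ _ (.succ hB)

theorem RenOK.succ (Γ : List (Tm S)) (A : Tm S) : RenOK Γ (A :: Γ) Nat.succ :=
  fun _ _ h => .succ h

theorem RenOK.comp {Γ Γ' Γ'' : List (Tm S)} {f g : ℕ → ℕ} (h : RenOK Γ Γ' f)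
    (k : RenOK Γ' Γ'' g) : RenOK Γ Γ'' (g ∘ f) := fun i A hA => by
  rw [← ren_ren]; exact k _ _ (h _ _ hA)

theorem Typed.ren {Γ : List (Tm S)} {M A : Tm S} (h : Typed Ax Ru Γ M A) :
    ∀ {Γ' : List (Tm S)} {f : ℕ → ℕ}, RenOK Γ Γ' f → Wf Ax Ru Γ' →
      Typed Ax Ru Γ' (M.ren f) (A.ren f) := by
  induction h with
  | ax h => intro Γ' f _ w; exact w.axiom_sort h
  | var _ _ => intro Γ' f hf w; exact (hf _ _ .zero).typed w
  | weak _ _ ih _ => intro Γ' f hf w; rw [ren_ren, ren_ren]; exact ih hf.tail w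
  | prod _ _ hr ihA ihB =>
    intro Γ' f hf w
    exact .prod (ihA hf w) (ihB (hf.up _) (.cons w (ihA hf w))) hr
  | @abs Γ A M B s _ _ ihM ihP =>
    intro Γ' f hf w
    obtain ⟨s1, h1⟩ := (ihP hf w).pi_dom rfl
    exact .abs (ihM (hf.up _) (.cons w h1)) (ihP hf w)
  | app _ _ ihM ihN =>
    intro Γ' f hf w
    rw [inst_ren]
    exact .app (ihM hf w) (ihN hf w)
  | conv _ _ hc ih ihB => intro Γ' f hf w; exact .conv (ih hf w) (ihB hf w) (Conv.ren hc f)

theorem Typed.succ {Γ : List (Tm S)} {M A C : Tm S} {s : S} (h : Typed Ax Ru Γ M A)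
    (hC : Typed Ax Ru Γ C (.srt s)) : Typed Ax Ru (C :: Γ) (M.ren Nat.succ) (A.ren Nat.succ) :=
  .weak h hC

/-- A substitution from one context into another. -/
def SubOK (Ax : S → S → Prop) (Ru : S → S → S → Prop) (Γ Γ' : List (Tm S)) (σ : ℕ → Tm S) : Prop :=
  ∀ i A, Look Γ i A → Typed Ax Ru Γ' (σ i) (A.sub σ)

theorem SubOK.up {Γ Γ' : List (Tm S)} {σ : ℕ → Tm S} {A : Tm S} {s : S}
    (h : SubOK Ax Ru Γ Γ' σ) (hA : Typed Ax Ru Γ' (A.sub σ) (.srt s)) :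
    SubOK Ax Ru (A :: Γ) (A.sub σ :: Γ') (ups σ) := by
  intro i B hB
  cases hB with
  | zero =>
    rw [sub_ren, show ups σ ∘ Nat.succ = fun i => (σ i).ren Nat.succ from rfl, ← ren_sub]
    exact .var hA
  | succ hB =>
    rw [sub_ren, show ups σ ∘ Nat.succ = fun i => (σ i).ren Nat.succ from rfl, ← ren_sub]
    exact Typed.weak (h _ _ hB) hA

theorem SubOK.tail {Γ Γ' : List (Tm S)} {σ : ℕ → Tm S} {A : Tm S}
    (h : SubOK Ax Ru (A :: Γ) Γ' σ) : SubOK Ax Ru Γ Γ' (σ ∘ Nat.succ) := fun i B hB => by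
  rw [← sub_ren]; exact h _ _ (.succ hB)

theorem Typed.sub {Γ : List (Tm S)} {M A : Tm S} (h : Typed Ax Ru Γ M A) :
    ∀ {Γ' : List (Tm S)} {σ : ℕ → Tm S}, SubOK Ax Ru Γ Γ' σ → Wf Ax Ru Γ' →
      Typed Ax Ru Γ' (M.sub σ) (A.sub σ) := by
  induction h with
  | ax h => intro Γ' σ _ w; exact w.axiom_sort h
  | var _ _ => intro Γ' σ hσ w; exact hσ _ _ .zero
  | weak _ _ ih _ => intro Γ' σ hσ w; rw [sub_ren, sub_ren]; exact ih hσ.tail w
  | prod _ _ hr ihA ihB =>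
    intro Γ' σ hσ w
    exact .prod (ihA hσ w) (ihB (hσ.up (ihA hσ w)) (.cons w (ihA hσ w))) hr
  | @abs Γ A M B s _ _ ihM ihP =>
    intro Γ' σ hσ w
    obtain ⟨s1, h1⟩ := (ihP hσ w).pi_dom rfl
    exact .abs (ihM (hσ.up h1) (.cons w h1)) (ihP hσ w)
  | app _ _ ihM ihN =>
    intro Γ' σ hσ w
    rw [inst_sub]
    exact .app (ihM hσ w) (ihN hσ w)
  | conv _ _ hc ih ihB => intro Γ' σ hσ w; exact .conv (ih hσ w) (ihB hσ w) (Conv.sub hc σ)

theorem Typed.inst {Γ : List (Tm S)} {M B N A : Tm S} (h : Typed Ax Ru (A :: Γ) M B)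
    (hN : Typed Ax Ru Γ N A) : Typed Ax Ru Γ (M.sub (inst N)) (B.sub (inst N)) := by
  refine h.sub (fun i C hC => ?_) hN.wf
  cases hC with
  | zero => rw [inst_succ]; exact hN
  | succ hC => rw [inst_succ]; exact hC.typed hN.wf

theorem Typed.pi_inv {Γ : List (Tm S)} {X T : Tm S} (h : Typed Ax Ru Γ X T) :
    ∀ {A B}, X = .pi A B → ∃ s₁ s₂ s₃, Ru s₁ s₂ s₃ ∧ Typed Ax Ru Γ A (.srt s₁) ∧
      Typed Ax Ru (A :: Γ) B (.srt s₂) := by
  induction h with
  | ax => intro A B e; cases e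
  | var => intro A B e; cases e
  | @weak Γ M B0 A0 s _ hA ih _ =>
    intro A B e
    cases M with
    | pi a b =>
      cases e
      obtain ⟨s1, s2, s3, hr, h1, h2⟩ := ih rfl
      exact ⟨s1, s2, s3, hr, Typed.weak h1 hA,
        h2.ren ((RenOK.succ Γ A0).up a) (.cons (.cons h1.wf hA) (Typed.weak h1 hA))⟩
    | _ => cases e
  | prod hA hB hr => intro A B e; cases e; exact ⟨_, _, _, hr, hA, hB⟩
  | abs => intro A B e; cases e
  | app => intro A B e; cases e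
  | conv _ _ _ ih => intro A B e; exact ih e

/-- Types are sorts or have sorts. -/
theorem Typed.correct {Γ : List (Tm S)} {M A : Tm S} (h : Typed Ax Ru Γ M A) :
    (∃ s, A = .srt s) ∨ ∃ s, Typed Ax Ru Γ A (.srt s) := by
  induction h with
  | ax => exact .inl ⟨_, rfl⟩
  | var h _ => exact .inr ⟨_, Typed.weak h h⟩
  | weak _ hA ih _ =>
    rcases ih with ⟨s, rfl⟩ | ⟨s, hs⟩
    · exact .inl ⟨s, rfl⟩
    · exact .inr ⟨s, Typed.weak hs hA⟩
  | prod => exact .inl ⟨_, rfl⟩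
  | abs _ hP => exact .inr ⟨_, hP⟩
  | app _ hN ih _ =>
    rcases ih with ⟨s, hs⟩ | ⟨s, hs⟩
    · cases hs
    · obtain ⟨_, s2, _, _, _, hB⟩ := hs.pi_inv rfl
      exact .inr ⟨s2, hB.inst hN⟩
  | conv _ hB _ _ => exact .inr ⟨_, hB⟩

end Vale.Agent.P340.Hub
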